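import Vale.Agent.P144C.E.Defs
import Vale.Agent.P144D.I.O.Step

/-!
One step of the flow of the insertions, for marks at corners.
-/

namespace Vale.Agent.P144C

open Finset Matrix Vale.Agent.P144Z Vale.Agent.P144Z.IO Geo

namespace E

open RN CnI

variable {G : Geo} {T : Set G.S} {κ₀ : G.K} {H : Gr G.S}
  {U : Finset G.P} {ℓ ℓ' : ℕ} {c η ν ν' h h' β β' : ℝ} {s : G.P × Fin 4}
  {u : G.P × Fin 4 → ℝ}

theorem dot_le (hℓ : 1 ≤ ℓ) (hc : 0 ≤ c) (hm : MkAt2 G.A ℓ ℓ' s u ν ν' c η) {z : G.P}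
    (hz : tdist z s.1 ≤ ℓ) {δ : G.P × Fin 4 → ℝ} {c₀ : ℝ} (hc₀ : 0 ≤ c₀) (hd : Dom G.A ℓ z δ c₀) :
    |δ ⬝ᵥ u| ≤ c₀ * (c / ν) := by
  have hν := hm.pos
  refine Dom.abs_le hℓ hc₀ hd (by positivity) ?_
  refine (RN.hsq_mono G.A (Nat.cast_nonneg ℓ) le_rfl
    (E4.ball_sub (r' := 3 * ℓ) (z' := s.1) (by omega)) u).trans ?_
  rw [div_pow, div_mul_eq_mul_div, le_div_iff₀ (by positivity)]
  exact hm.test

/-- The coefficient is bounded by the norm. -/
theorem first (hℓ : 1 ≤ ℓ) (hc : 0 < c) (hm : MkAt2 G.A ℓ ℓ' s u ν ν' c η) (hh : 0 < h)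
    (hβ : 0 < β) (hU : ∀ z ∈ U, tdist z s.1 ≤ ℓ) (hH : H ∈ loc (G.gens U)) :
    √β * (h * ν / c) * |beta H (eta G κ₀) (G.ex u)| ≤ nrm (G.cons ℓ h β U) (G.gens U) H := by
  have hν := hm.pos
  refine abs_beta_le (adm hℓ hh hβ U) hH (by positivity) (by positivity) fun p hp => ?_
  rcases cons_cases hp with ⟨z, hz, δ, c₀, -, hc₀, hd, rfl⟩ | ⟨k, i, -, rfl⟩
  · dsimp only
    rw [ex_dot_src, abs_zero, mul_zero, zero_add, ex_dot]
    refine (mul_le_mul_of_nonneg_left (dot_le hℓ hc.le hm (hU z hz) hc₀ hd)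
      (by positivity)).trans_eq ?_
    field_simp
  · dsimp only
    rw [src_dot_ex, abs_zero, mul_zero, add_zero, single_one_dotProduct]
    refine mul_le_of_le_one_right (Real.sqrt_nonneg _) ?_
    unfold eta
    rw [Pi.single_apply]
    split_ifs <;> simp

/-- The field minus its part of rank one is small at the next scale. -/
theorem small (hℓ : 1 ≤ ℓ) {L : ℕ} (hL : 2 ≤ L) (hη : 0 < η)
    (hm : MkAt2 G.A ℓ (L * ℓ) s u ν ν' c η) {r : Rep G.S} (hr : r.In (G.cons (L * ℓ) h' β' U))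
    (hs : s.1 ∈ U) {z : G.P} (hz : tdist z s.1 ≤ ℓ) {δ : G.P × Fin 4 → ℝ} {c₀ : ℝ}
    (h1 : SuppIn δ z ℓ) (hc₀ : 0 ≤ c₀) (hd : Dom G.A ℓ z δ c₀) :
    opn (r.Ψ (G.ex δ - (δ ⬝ᵥ u) • G.ex (Pi.single s 1))) ≤ h' * (c₀ * (η * (ν' / ν))) := by
  have hν := hm.pos
  have hν' := hm.pos'
  have l0 : (0 : ℝ) < ℓ := by exact_mod_cast hℓ
  have h2 : ℓ + tdist z s.1 ≤ L * ℓ := by nlinarith
  rw [← ex_smul, ← ex_sub]
  refine In.fld hr hs (SuppIn.sub (SuppIn.mono h1 h2) (SuppIn.smul (supp_single s _) _))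
    (by positivity) (Dom.transfer hℓ hd fun w => ⟨w - w s • u, ?_, ?_⟩)
  · rw [sub_dotProduct, smul_dotProduct, dotProduct_sub, dotProduct_smul, smul_eq_mul,
      smul_eq_mul, single_one_dotProduct, mul_comm]
  · have e1 := RN.hsq_mono G.A l0.le le_rfl
      (E4.ball_sub (z := z) (r := 2 * ℓ) (r' := 3 * ℓ) (z' := s.1) (by omega)) (w - w s • u)
    have e2 := RN.hsq_mono G.A (Nat.cast_nonneg (L * ℓ)) le_rfl
      (E4.ball_sub (z := s.1) (r := L * ℓ) (r' := 2 * (L * ℓ)) (z' := s.1)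
        (by rw [tdist_self]; omega)) w
    have e3 := hm.rank w
    refine le_of_mul_le_mul_right ?_ (pow_pos hν 2)
    have e5 : (η * (ν' / ν)) ^ 2 * ℓ * ν ^ 2 = η ^ 2 * ℓ * ν' ^ 2 := by field_simp
    have e6 := mul_le_mul_of_nonneg_right
      (mul_le_mul_of_nonneg_right e1 (Nat.cast_nonneg (α := ℝ) (L * ℓ))) (sq_nonneg ν)
    have e7 := mul_le_mul_of_nonneg_left e2 (show 0 ≤ η ^ 2 * ℓ * ν' ^ 2 by positivity)
    rw [mul_right_comm ((η * (ν' / ν)) ^ 2 * ℓ) (hsq _ _ _ w), e5]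
    exact e6.trans (e3.trans e7)

/-- The remainder is small at the next scale. -/
theorem second (hT : One T κ₀) (hTU : T ⊆ G.gens U) (hH : H ∈ loc T) (he : H ∈ evenS G.S)
    (h0 : ExteriorAlgebra.map (prF G) H = 0) (hℓ : 1 ≤ ℓ) {L : ℕ} (hc : 1 ≤ c) (hη : 0 < η)
    (hηc : η ≤ c) (hL2 : 2 ≤ L) (hm : MkAt2 G.A ℓ (L * ℓ) s u ν ν' c η) (hh : 0 < h)
    (hh' : 0 < h') (hhh : h' ≤ 4 * h) (hβ : 0 < β) (hβ' : 0 < β') (hs : s.1 ∈ U)
    (hκ : (G.src κ₀).y ∈ U) (hU : ∀ z ∈ U, tdist z s.1 ≤ ℓ) :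
    √β / √β' * nrm (G.cons (L * ℓ) h' β' U) (G.gens U)
      (H - beta H (eta G κ₀) (G.ex u) • (psi (eta G κ₀) * psi (G.ex (Pi.single s 1)))) ≤
      16 * (η * (ν' / ν)) * nrm (G.cons ℓ h β U) (G.gens U) H := by
  have hν := hm.pos
  have hν' := hm.pos'
  have c0 : 0 < c := by linarith
  have b9 : c * (ν' / ν) ≤ 1 / 16 := by
    rw [← mul_div_assoc, div_le_iff₀ hν]
    linarith [hm.le]
  have b8 : η * (ν' / ν) ≤ 1 / 16 := (mul_le_mul_of_nonneg_right hηc (by positivity)).trans b9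
  have hl : 1 ≤ L * ℓ := Nat.mul_pos (by omega) hℓ
  have hlam : 0 < √β / √β' := by positivity
  set d : G.S → ℝ := G.ex (Pi.single s 1) with hd
  set P : (G.S → ℝ) →ₗ[ℝ] (G.S → ℝ) := prB G + (pair (G.ex u)).smulRight d with hP
  set D : (G.S → ℝ) →ₗ[ℝ] (G.S → ℝ) := prF G + (√β / √β') • prB G with hD
  have hDf : ∀ δ, D (G.ex δ) = G.ex δ := fun δ => by
    rw [hD, LinearMap.add_apply, LinearMap.smul_apply, prF_ex, prB_ex, smul_zero, add_zero]
  have hDs : ∀ k : G.K × Fin 2, D (Pi.single (Sum.inr k) 1) =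
      (√β / √β') • (Pi.single (Sum.inr k) 1 : G.S → ℝ) := fun k => by
    rw [hD, LinearMap.add_apply, LinearMap.smul_apply, prF_src, prB_src, zero_add]
  have hrk := rank hT hH he h0 (G.ex u) d
  have hDH : ExteriorAlgebra.map D H = (√β / √β') • H :=
    lin hT hH h0 D _ (fun x => by rw [← ex_single, hDf]) (hDs _)
  have hHU : H ∈ loc (G.gens U) := A1.loc_mono hTU hH
  have hmem : H - beta H (eta G κ₀) (G.ex u) • (psi (eta G κ₀) * psi d) ∈ loc (G.gens U) := by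
    refine Subalgebra.sub_mem _ hHU (Subalgebra.smul_mem _ (Subalgebra.mul_mem _ ?_ ?_) _)
    · exact A1.gen_mem (s := Sum.inr (κ₀, 0)) hκ
    · rw [hd, ex_single]
      exact A1.gen_mem (s := Sum.inl s) hs
  rw [← le_div_iff₀' hlam]
  refine nrm_le (adm hl hh' hβ' U) hmem fun r hr => ?_
  rw [le_div_iff₀' hlam]
  have key := R1.opn_pert (fun r hr => le_nrm (adm hℓ hh hβ U) hHU r hr) (P - LinearMap.id)
    (A3.comap r D) (ρ := 8 * (η * (ν' / ν))) (by positivity)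
    (by linarith) fun p hp => by
      rw [A3.opn_comap, A3.opn_comap]
      rcases cons_cases hp with ⟨z, hz, δ, c₀, s1, hc₀, hδ, rfl⟩ | ⟨k, i, hy, rfl⟩
      · dsimp only
        have e1 : (P - LinearMap.id : (G.S → ℝ) →ₗ[ℝ] (G.S → ℝ)) (G.ex δ) =
            -G.ex (δ - (δ ⬝ᵥ u) • Pi.single s 1) := by
          rw [LinearMap.sub_apply, hP, LinearMap.add_apply, prB_ex, rk_apply, ex_dot, ex_sub,
            ex_smul, zero_add, neg_sub]
          rfl
        rw [e1, map_neg, hDf, hDf, map_neg, A3.opn_neg, ex_sub, ex_smul]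
        have b1 := small hℓ hL2 hη hm hr hs (hU z hz) s1 hc₀ hδ
        have b2 := dot_le hℓ (by linarith) hm (hU z hz) hc₀ hδ
        have b3 : opn (r.Ψ (G.ex (Pi.single s 1))) ≤ h' * ν' :=
          In.fld hr hs (supp_single s _) hν'.le hm.dom'
        have b5 : opn (r.Ψ ((δ ⬝ᵥ u) • G.ex (Pi.single s 1))) ≤ h' * (c₀ * (c * (ν' / ν))) := by
          rw [map_smul, A3.opn_smul]
          refine (mul_le_mul b2 b3 (A3.opn_nonneg _) (by positivity)).trans_eq ?_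
          field_simp
        have b6 : opn (r.Ψ (G.ex δ)) ≤ h' * (c₀ * (η * (ν' / ν))) +
            h' * (c₀ * (c * (ν' / ν))) := by
          have e2 : r.Ψ (G.ex δ) = r.Ψ (G.ex δ - (δ ⬝ᵥ u) • G.ex (Pi.single s 1)) +
              r.Ψ ((δ ⬝ᵥ u) • G.ex (Pi.single s 1)) := by
            rw [← map_add, sub_add_cancel]
          rw [e2]
          exact (A3.opn_add _ _).trans (add_le_add b1 b5)
        have b7 : opn (r.Ψ (G.ex δ - (δ ⬝ᵥ u) • G.ex (Pi.single s 1))) /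
            (8 * (η * (ν' / ν))) ≤
            h' * (c₀ * (1 / 8)) := by
          rw [div_le_iff₀ (by positivity)]
          refine b1.trans_eq ?_
          field_simp
        have b10 := mul_le_mul_of_nonneg_left (mul_le_mul_of_nonneg_left b8 hc₀) hh'.le
        have b11 := mul_le_mul_of_nonneg_left (mul_le_mul_of_nonneg_left b9 hc₀) hh'.le
        have b12 := mul_le_mul_of_nonneg_right hhh hc₀
        linarith
      · dsimp only
        have e1 : (P - LinearMap.id : (G.S → ℝ) →ₗ[ℝ] (G.S → ℝ))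
            (Pi.single (Sum.inr (k, i)) 1) = 0 := by
          rw [LinearMap.sub_apply, hP, LinearMap.add_apply, prB_src, rk_apply, src_dot_ex,
            zero_smul, add_zero]
          exact sub_self _
        rw [e1, map_zero, opn_Psi_zero, zero_div, add_zero, hDs, map_smul, A3.opn_smul,
          abs_of_pos hlam]
        refine (mul_le_mul_of_nonneg_left (In.src hr hy i) hlam.le).trans_eq ?_
        have : √β' ≠ 0 := by positivity
        field_simp
  rw [add_sub_cancel, hrk, A3.opn_comap_ev, map_sub, hDH, map_smul, map_mul, A1.map_psi,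
    A1.map_psi, hDs, hd, hDf, A1.psi_smul, smul_mul_assoc, smul_comm, ← smul_sub, map_smul,
    A3.opn_smul, abs_of_pos hlam, ← neg_sub, map_neg, A3.opn_neg] at key
  refine key.trans_eq ?_
  ring

end E

section

open RN

open CnI hiding first second in
theorem con_I2 : ∃ C : ℝ, 1 ≤ C ∧ ∀ (g : Geo) (k : ℕ) (s : Fin k → g.P × Fin 4) (L ℓ : ℕ)
    (c η ν ν' h h' β β' δ : ℝ) (w w' : Fin k → ℝ) (i : Fin k) (u : g.P × Fin 4 → ℝ), 1 ≤ ℓ →
    1 ≤ c → 0 < η → η ≤ c → C * c ^ 4 ≤ L → MkAt2 g.A ℓ (L * ℓ) (s i) u ν ν' c η → 0 < h → h ≤ h' →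
    h' ≤ 2 * h → 0 < β → 0 < β' → 0 < δ → w i = δ / (h * ν) → w' i = δ / (h' * ν') →
    ∀ U : Finset g.P, stein U ≤ ℓ → (s i).1 ∈ U → (∀ i', (s i').1 ∈ U → i' = i) →
    (∀ κ, (g.src κ).y ∉ U) → ∀ F ∈ g.elI s U, g.scI s 0 F = 0 →
      δ * |g.tI s u i F| ≤ C * c * g.pI s ℓ (h / 2) β w U F ∧
      g.pI s (L * ℓ) h' β' w' U (F - g.tI s u i F • g.eI s i) ≤
        C * c ^ 2 * η * g.pI s ℓ (h / 2) β w U F := by
  refine ⟨256, by norm_num, ?_⟩
  intro g k s L ℓ c η ν ν' h h' β β' δ w w' i u hℓ hc hη hηc hL hm hh hhh hh2 hβ hβ' hδ hw hw' U hU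
    hs h1 h2 F hF h0
  have hν := hm.pos
  have hν' := hm.pos'
  have hh' : 0 < h' := hh.trans_le hhh
  have c0 : 0 < c := by linarith
  have c4 : 1 ≤ c ^ 4 := one_le_pow₀ hc
  have hL0 : (0 : ℝ) < L := by linarith
  have hl : 1 ≤ L * ℓ := Nat.mul_pos (by exact_mod_cast hL0) hℓ
  have hL2 : 2 ≤ L := by
    have : (2 : ℝ) ≤ L := by linarith
    exact_mod_cast this
  have hsb : 0 < √β := Real.sqrt_pos.2 hβ
  have hsb' : 0 < √β' := Real.sqrt_pos.2 hβ'
  have hU' : ∀ z ∈ U, tdist z (s i).1 ≤ ℓ := fun z hz => (tdist_le_stein hz hs).trans hU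
  have hk := kill h1 h2 hF h0
  have hT := one_of h1 h2
  have hw0 : 0 < w i := by rw [hw]; positivity
  have hw0' : 0 < w' i := by rw [hw']; positivity
  have hval : Ev.val (F - g.tI s u i F • g.eI s i) = Ev.val F -
      beta (Ev.val F) (eta (g.xt s) (Sum.inr i)) ((g.xt s).ex u) •
        (psi (eta (g.xt s) (Sum.inr i)) * psi ((g.xt s).ex (Pi.single (s i) 1))) := by
    rw [map_sub, map_smul]
    unfold Geo.eI
    rw [val_pp]
    rfl
  have hG : F - g.tI s u i F • g.eI s i ∈ g.elI s U := by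
    refine Subalgebra.sub_mem _ hF (Subalgebra.smul_mem _ ?_ _)
    refine R6.pp_mem (R6.single_zero (s := Sum.inr (Sum.inr i, 0)) ⟨hs, ?_⟩) ?_
    · rintro ⟨i', e⟩
      have e1 : (1 : Fin 2) = 0 := congrArg Prod.snd (Sum.inr.inj e)
      exact absurd e1 (by decide)
    · have e := ex_single (g.xt s) (s i)
      rw [e]
      exact R6.single_zero (s := Sum.inl (s i)) ⟨hs, fun ⟨_, e⟩ => Sum.inr_ne_inl e⟩
  have hk' : ExteriorAlgebra.map (prF (g.xt s)) (Ev.val (F - g.tI s u i F • g.eI s i)) = 0 := by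
    rw [hval, map_sub, hk, map_smul, map_mul, A1.map_psi, prF_src, A1.psi_zero, zero_mul,
      smul_zero, sub_zero]
  have f1 := E.first (G := g.xt s) (κ₀ := Sum.inr i) (U := U) (H := Ev.val F) hℓ c0 hm (half_pos hh) hβ
    hU' (A1.loc_mono Set.sdiff_subset hF)
  have f2 := E.second (G := g.xt s) (H := Ev.val F) hT Set.sdiff_subset hF (Ev.val_mem F) hk hℓ hc
    hη hηc hL2 hm (half_pos hh) hh' (by linarith) hβ hβ' hs hs hU'
  rw [← hval] at f2
  rw [pI_eq h1 h2 hF hk hℓ (half_pos hh) hβ hw0, pI_eq h1 h2 hG hk' hl hh' hβ' hw0']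
  have hN := nrm_nonneg (𝒞 := (g.xt s).cons ℓ (h / 2) β U) (T := (g.xt s).gens U) (Ev.val F)
  change √β * (h / 2 * ν / c) * |g.tI s u i F| ≤ _ at f1
  generalize nrm ((g.xt s).cons ℓ (h / 2) β U) ((g.xt s).gens U) (Ev.val F) = N at f1 f2 hN ⊢
  generalize nrm ((g.xt s).cons (L * ℓ) h' β' U) ((g.xt s).gens U)
    (Ev.val (F - g.tI s u i F • g.eI s i)) = N' at f2 ⊢
  constructor
  · have e2 : δ * |g.tI s u i F| =
        2 * c * (w i / √β) * (√β * (h / 2 * ν / c) * |g.tI s u i F|) := by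
      rw [hw]
      field_simp
    rw [e2]
    have e3 := mul_le_mul_of_nonneg_left f1 (show 0 ≤ 2 * c * (w i / √β) by positivity)
    have e4 : 0 ≤ c * (w i / √β * N) := by positivity
    nlinarith
  · have b2 : w' i * (ν' / ν) ≤ w i := by
      have e0 : w' i * (ν' / ν) = δ / (h' * ν) := by rw [hw']; field_simp
      rw [e0, hw]
      exact div_le_div_of_nonneg_left hδ.le (by positivity) (by gcongr)
    have e1 : w' i / √β' * N' = w' i / √β * (√β / √β' * N') := by field_simp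
    rw [e1]
    refine (mul_le_mul_of_nonneg_left f2 (by positivity)).trans ?_
    have e2 : w' i / √β * (16 * (η * (ν' / ν)) * N) = 16 * η * (w' i * (ν' / ν) / √β * N) := by
      ring
    rw [e2]
    refine mul_le_mul ?_ (by gcongr) (by positivity) (by positivity)
    nlinarith [mul_pos c0 hη, one_le_pow₀ (n := 2) hc]

end

open Mn Filter

theorem num2 {c' L x : ℝ} {m n : ℕ} (hc' : 1 ≤ c') (hL : 342 * c' ≤ L) (x0 : 0 ≤ x)
    (a4 : ((m + n : ℕ) : ℝ) ≤ 1 + 2 * (x / L)) :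
    (2 * √L) ^ (m * 2) * (2 * (c' * L)) ^ n ≤ 4 * c' * L * Real.exp (x / 2) := by
  have hL0 : 1 ≤ L := by linarith
  have q1 : 1 ≤ √L := Real.one_le_sqrt.2 hL0
  have q2 : √L * √L = L := Real.mul_self_sqrt (by linarith)
  have e3 : x / L * L = x := div_mul_cancel₀ _ (by linarith)
  have e4 : 0 ≤ x / L := by positivity
  have b0 : (1 : ℝ) ≤ 4 * c' * L := by nlinarith
  have b1 : Real.log (4 * c' * L) ≤ L / 4 := by
    have d1 := Real.log_le_sub_one_of_pos (by positivity : (0 : ℝ) < 64 * c')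
    have d2 := Real.log_le_sub_one_of_pos (by positivity : (0 : ℝ) < L / 16)
    rw [show (4 : ℝ) * c' * L = 64 * c' * (L / 16) by ring,
      Real.log_mul (by positivity) (by positivity)]
    linarith
  have d1 : (2 * √L) ^ (m * 2) ≤ (4 * c' * L) ^ m := by
    rw [mul_comm m 2, pow_mul]
    exact pow_le_pow_left₀ (by positivity) (by nlinarith) m
  have d2 : (2 * (c' * L)) ^ n ≤ (4 * c' * L) ^ n := by
    refine pow_le_pow_left₀ (by positivity) ?_ n
    nlinarith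
  refine (mul_le_mul d1 d2 (by positivity) (by positivity)).trans ?_
  rw [← pow_add, ← Real.exp_log (by positivity : (0 : ℝ) < 4 * c' * L), ← Real.exp_nat_mul,
    ← Real.exp_add, Real.exp_le_exp]
  have d4 := mul_le_mul_of_nonneg_right a4 (Real.log_nonneg b0)
  have d5 := mul_le_mul_of_nonneg_left b1 e4
  have d6 : x / L * (L / 4) = x / 4 := by linarith
  linarith

theorem T1I2 : ∃ ε₁ > (0 : ℝ), ∃ C : ℝ, 1 ≤ C ∧ ∀ c' : ℝ, 1 ≤ c' → ∃ L₀ : ℕ, ∀ L ≥ L₀, ∀ g : Geo,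
    IsW g.A → ∀ (k : ℕ) (s : Fin k → g.P × Fin 4) (ℓ : ℕ) (c : ℝ), 8 ≤ ℓ → 16 * (L * ℓ) ≤ g.M →
    1 ≤ c → c ^ 2 ≤ ε₁ * L → g.SepW (8 * (L * ℓ)) →
    (∀ z, (∃ f, tdist f z ≤ L * ℓ ∧ |flux g.A f| ≠ 1) →
      RN.Shr g.A ℓ (L * ℓ) z (c * √((ℓ : ℝ) / (L * ℓ : ℕ)))) →
    (∀ i i', i ≠ i' → 7 * (L * ℓ) < tdist (s i).1 (s i').1) →
    (∀ i κ, 7 * (L * ℓ) < tdist (g.src κ).y (s i).1) →
    ∀ (h h' β β' : ℝ) (w w' : Fin k → ℝ), 0 < h → 0 < h' → h' ≤ 4 * h → 0 < β → 0 < β' →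
    β' ≤ L * β → (∀ i, 0 < w i ∧ 0 < w' i ∧ w' i ≤ c' * L * w i) → ∀ U, ∀ F ∈ g.elI s U,
      g.pI s (L * ℓ) h' β' w' U F ≤
        C * c' * L * Real.exp ((stein U : ℝ) / ℓ) * g.pI s ℓ h β w U F := by
  obtain ⟨C, hC, H⟩ := T1.pn_flux
  refine ⟨1 / C, by positivity, 4 * C, by linarith, fun c' hc' => ⟨⌈342 * c' + 2 * C⌉₊,
    fun L hL g hA k s ℓ c hl hM hc hcL hS hsh hss hsf h h' β β' w w' hh hh' h4 hβ hβ' hb hw U F
      hF => ?_⟩⟩
  have hL1 : 342 * c' + 2 * C ≤ L := (Nat.le_ceil _).trans (by exact_mod_cast hL)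
  have hL0 : (1 : ℝ) ≤ L := by linarith
  have hLn : 1 ≤ L := by exact_mod_cast hL0
  have hl0 : (0 : ℝ) < ℓ := by positivity
  have hLl : ℓ ≤ L * ℓ := Nat.le_mul_of_pos_left ℓ hLn
  have hcast : ((L * ℓ : ℕ) : ℝ) = L * ℓ := Nat.cast_mul _ _
  have q1 : 1 ≤ √(L : ℝ) := Real.one_le_sqrt.2 hL0
  have a1 : g.pI s (L * ℓ) h' β' w' U F ≤
      C * Real.exp (C * stein U / (L * ℓ : ℕ)) * g.pI s ℓ h β' w' U F :=
    H (g.xt s) hA ℓ (L * ℓ) h h' β' c hl hc (by
      rw [hcast]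
      refine mul_le_mul_of_nonneg_right ?_ hl0.le
      rw [one_div, ← div_eq_inv_mul, le_div_iff₀ (by linarith)] at hcL
      linarith) hM hh hh' h4 hβ' (fun f a f' b c => hS.ff f a f' b (le_trans c (by omega))) U _
      (T1.scI_loc _ hF) fun z _ => by
        by_cases h1 : ∀ f, tdist f z ≤ L * ℓ → |flux g.A f| = 1
        · exact Or.inl h1
        · push Not at h1
          exact Or.inr (hsh z h1)
  have a2 := T1.pI_beta (ℓ := ℓ) (by omega) hh hβ hβ' q1 (by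
    rw [← Real.sqrt_mul (by linarith)]
    exact Real.sqrt_le_sqrt hb) w' hF
  have a3 := T1.pI_wt (ℓ := ℓ) (by omega) hh hβ (Λ := c' * L) (by nlinarith) hw hF
  have a4 := T1.card_le (Sum.elim (fun κ => (g.src κ).y) fun i => (s i).1) (r := L * ℓ) (by omega) (fun κ κ' hne => by
    rcases κ with κ | i <;> rcases κ' with κ' | i'
    · have := hS.ss κ κ' fun e => hne (by rw [e])
      exact lt_of_le_of_lt (by omega) this
    · exact lt_of_le_of_lt (by omega) (hsf i' κ)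
    · have := hsf i κ'
      rw [tdist_comm] at this
      exact lt_of_le_of_lt (by omega) this
    · exact lt_of_le_of_lt (by omega) (hss i i' fun e => hne (by rw [e]))) U
  rw [T1.card_add] at a4
  set x : ℝ := (stein U : ℝ) / ℓ with hx
  have x0 : 0 ≤ x := by positivity
  have e1 : 2 * (stein U : ℝ) / (L * ℓ : ℕ) = 2 * (x / L) := by rw [hcast, hx]; field_simp
  have e2 : C * (stein U : ℝ) / (L * ℓ : ℕ) = C * (x / L) := by rw [hcast, hx]; field_simp
  rw [e1] at a4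
  have b2 := num2 hc' (by linarith) x0 a4
  have b3 : Real.exp (C * stein U / (L * ℓ : ℕ)) ≤ Real.exp (x / 2) := by
    rw [e2, Real.exp_le_exp]
    have d5 := mul_le_mul_of_nonneg_left (by linarith : C ≤ L / 2) (by positivity : 0 ≤ x / L)
    have d6 : x / L * (L / 2) = x / 2 := by field_simp
    linarith
  have p0 : 0 ≤ g.pI s ℓ h β w U F := RN.pn_nonneg _
  have b4 : g.pI s ℓ h β' w' U F ≤ 4 * c' * L * Real.exp (x / 2) * g.pI s ℓ h β w U F := by
    refine a2.trans ((mul_le_mul_of_nonneg_left a3 (by positivity)).trans ?_)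
    rw [← mul_assoc]
    exact mul_le_mul_of_nonneg_right b2 p0
  refine a1.trans ((mul_le_mul (mul_le_mul_of_nonneg_left b3 (by linarith)) b4 (RN.pn_nonneg _)
    (by positivity)).trans (le_of_eq ?_))
  rw [show Real.exp x = Real.exp (x / 2) * Real.exp (x / 2) by rw [← Real.exp_add, add_halves]]
  ring

open O7 in
theorem step_I2 : StepI2 := by
  obtain ⟨ε₁, hε₁, C₃, hC₃, hT⟩ := T1I2
  obtain ⟨C₆, hC₆, hK⟩ := con_I2
  obtain ⟨L₁, hN⟩ := anch_NL
  refine ⟨ε₁, hε₁, fun c' hc' => ?_⟩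
  obtain ⟨L₂, hT⟩ := hT c' hc'
  obtain ⟨L₃, hL₃⟩ := eventually_atTop.1 ((R8.ev_exp (100 * (C₃ * c'))).and
    (tendsto_natCast_atTop_atTop.eventually_ge_atTop (C₆ * c' ^ 4)))
  obtain ⟨A, hA⟩ : ∃ A, A = Real.exp 1 * (C₆ * c' ^ 2) := ⟨_, rfl⟩
  have hA1 : 1 ≤ A := hA ▸ one_le_mul_of_one_le_of_one_le (Real.one_le_exp zero_le_one)
    (one_le_mul_of_one_le_of_one_le hC₆ (one_le_pow₀ hc'))
  have hAc : 1 ≤ A * c' := one_le_mul_of_one_le_of_one_le hA1 hc'
  refine ⟨1 / (16 * A), by positivity, max (max L₁ L₂) (max L₃ 2), fun L hL => ?_⟩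
  obtain ⟨Cn, hCn, hN⟩ := hN L (le_of_max_le_left (le_of_max_le_left hL))
  have hT := hT L (le_of_max_le_right (le_of_max_le_left hL))
  obtain ⟨hE1, hE2⟩ := hL₃ L (le_of_max_le_left (le_of_max_le_right hL))
  have hL2 : 2 ≤ L := le_of_max_le_right (le_of_max_le_right hL)
  have hL2' : (2 : ℝ) ≤ L := by exact_mod_cast hL2
  have hB0 : 0 ≤ C₃ * c' * L := by positivity
  have h60 : 0 ≤ C₆ * c' := by positivity
  obtain ⟨X, hX⟩ : ∃ X, X = (A * c' + C₃ * c' * L) * Cn := ⟨_, rfl⟩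
  have hX1 : Cn ≤ X := hX ▸ le_mul_of_one_le_left (by linarith) (by linarith)
  obtain ⟨C, hC⟩ : ∃ C, C = 8 * X + 2 * (C₆ * c') + A * c' + 1 := ⟨_, rfl⟩
  refine ⟨C, by linarith, fun g hW hM hS c hc hcε hSch k s u ν hP j hj => ?_⟩
  obtain ⟨η, hη, hηc, hMk, hρ⟩ : ∃ η, 0 < η ∧ η ≤ c' ∧ (∀ i, MkAt2 g.A (sc L j) (sc L (j + 1)) (s i)
      (u i j) (ν i j) (ν i (j + 1)) c' η) ∧ A * η + 3 / 16 ≤ if j = 0 then C else 1 / 4 := by
    by_cases h0 : j = 0
    · subst h0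
      exact ⟨c', by linarith, le_rfl, fun i => (hP.ch i).zero, by rw [if_pos rfl]; linarith⟩
    · refine ⟨_, by positivity, ?_, fun i => (hP.ch i).pos j (by omega) hj, ?_⟩
      · exact (div_le_one_of_le₀ (by linarith) (by linarith)).trans hc'
      · rw [if_neg h0]
        exact le_of_eq (by field_simp; norm_num)
  generalize (if j = 0 then C else 1 / 4) = ρ at hρ ⊢
  intro h h' δ hh hhh hh2 hδ hCδ r hr hrz t ht htz D b a hD hb ha aD ab aK
  have hJ : L * sc L j ≤ sc L g.J := by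
    rw [← FM.sc_succ]
    exact FM.sc_mono (by omega) hj
  have hl := FM.eight_le_sc (L := L) (by omega) j
  have hSj := hSch j hj
  rw [FM.sc_succ] at hMk ⊢
  generalize sc L j = ℓ at *
  have hLl : 2 * ℓ ≤ L * ℓ := Nat.mul_le_mul_right ℓ hL2
  have hl0 : (0 : ℝ) < ℓ := by positivity
  have hmm : ∀ i i', i ≠ i' → 7 * (L * ℓ) < tdist (s i).1 (s i').1 := fun i i' hne => by
    have := hP.sep i i' hne
    omega
  have hsm : ∀ i κ, 7 * (L * ℓ) < tdist (g.src κ).y (s i).1 := fun i κ => by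
    have := hP.far i κ
    omega
  have hh0 : 0 < h := lt_of_lt_of_le (by positivity) hh
  have hh' : 0 < h' := by linarith
  have hβ : 0 < δ * ℓ / h ^ 2 := by positivity
  have hβ' : 0 < δ * (L * ℓ : ℕ) / h' ^ 2 := by positivity
  have hw : ∀ i, 0 < δ / (h * ν i j) := fun i => div_pos hδ (mul_pos hh0 (hMk i).pos)
  have hw' : ∀ i, 0 < δ / (h' * ν i (j + 1)) := fun i => div_pos hδ (mul_pos hh' (hMk i).pos')
  have hXδ : X * δ ≤ 1 / 8 := by
    have := mul_le_mul_of_nonneg_right (by linarith : 8 * X ≤ C) hδ.le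
    linarith
  have hSW := W.Geo.R8.sepW_mono hS (r' := 8 * (L * ℓ)) (by omega)
  obtain ⟨c1, n, hn0, hn, hrem⟩ := hN g hW k s ℓ h δ (fun i => δ / (h * ν i j)) hl (by omega) hSW
    hmm hsm hh hδ ((mul_le_mul_of_nonneg_right hX1 hδ.le).trans (by linarith)) hw
    (fun i => (pI_eI (by omega) hh0 hβ hw (hMk i).pos.le (hMk i).dom
      (mem_singleton_self _)).trans_eq (div_mul_cancel₀ _ (mul_pos hh0 (hMk i).pos).ne'))
    r hr hrz t ht htz D b a hD hb ha aD ab aK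
  have hm := (remI_mem hW ℓ (L * ℓ) (fun X => sub_le_el (hr.H_mem X)) hr.H_empty ht).2
  have hun : ∀ U, stein U ≤ ℓ → ∀ i, (s i).1 ∈ U → ∀ i', (s i').1 ∈ U → i' = i :=
    fun U hU i hi i' hi' => by_contra fun hne => by
      have b1 := hmm i' i hne
      have b2 := tdist_le_stein hi' hi
      omega
  have hcon := fun U (hU : stein U ≤ ℓ) i (hi : (s i).1 ∈ U) =>
    hK g k s L ℓ c' η _ _ h h' _ _ δ (fun i => δ / (h * ν i j)) (fun i => δ / (h' * ν i (j + 1))) i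
      (u i j) (by omega) hc' hη hηc hE2 (hMk i) hh0 hhh hh2 hβ hβ' hδ rfl rfl U hU hi (hun U hU i hi)
      (fun κ hκ => by
        have b1 := hsm i κ
        have b2 := tdist_le_stein hκ hi
        omega) _ (hm U).1 (hm U).2
  have ha0 := G.anch_nonneg (fun X => pI_nonneg _) aK
  have hD0 := G.anch_nonneg (R8.df_nonneg _ _) aD
  have hb0 := G.anch_nonneg (R8.bf_nonneg r) ab
  have hs0 : 0 ≤ a + D + b := by linarith
  have hν : (A * c' + C₃ * c' * L) * (Cn * δ * (a + D + b)) ≤ 1 / 8 * (a + D + b) := by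
    refine le_trans (le_of_eq ?_) (mul_le_mul_of_nonneg_right hXδ hs0)
    rw [hX]
    ring
  have hν0 : 0 ≤ Cn * δ * (a + D + b) := by positivity
  refine ⟨c1, anch_le (sum_core (s := s) (A := C₆ * c' ^ 2 * η) (B := C₃ * c' * L) hL2 (by omega)
    (by positivity) hB0 (fun _ => pI_nonneg _) hn0 aK hn (fun i i' hne => by
      have := hmm i i' hne
      omega) (fun U hU hi => ?_) (fun U hU i hi => ?_) fun U hU => ?_) ?_, fun i => ?_⟩
  · have aI : AdI (L * ℓ) h' _ _ := ⟨by omega, hh', hβ', hw'⟩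
    simp only [stepI]
    rw [zero_of_no_mark (hm U).1 (hm U).2 hi, sum_eq_zero fun i h1 => absurd (mem_filter.1 h1).2.2
      (hi i), sub_zero, aI.zero]
  · simp only [stepI]
    rw [sum_eq_single_of_mem i (mem_filter.2 ⟨mem_univ _, hU, hi⟩) fun i' h1 hne =>
      absurd (hun U hU i hi i' (mem_filter.1 h1).2.2) hne]
    exact (hcon U hU i hi).2.trans (mul_le_mul_of_nonneg_left (hrem U) (by positivity))
  · simp only [stepI]
    rw [sum_eq_zero fun i h1 => absurd (mem_filter.1 h1).2.1 hU, sub_zero]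
    refine (hT g hW k s ℓ c hl (by omega) hc hcε hSW hSj hmm hsm (h / 2) h' _ _ _ _ (half_pos hh0) hh'
      (by linarith) hβ hβ' ?_ (fun i => ⟨hw i, hw' i, ?_⟩) U _ (hm U).1).trans
      (mul_le_mul_of_nonneg_left (hrem U) (by positivity))
    · rw [Nat.cast_mul, ← mul_div_assoc, mul_left_comm]
      exact div_le_div_of_nonneg_left (by positivity) (by positivity)
        (pow_le_pow_left₀ hh0.le hhh 2)
    · have b1 := (hMk i).ge
      have b2 := (hMk i).pos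
      have b3 := (hMk i).pos'
      replace b1 : ν i j ≤ c' * L * ν i (j + 1) := by
        refine le_of_mul_le_mul_right (b1.trans_eq ?_) hl0
        push_cast
        ring
      rw [← mul_div_assoc, div_le_div_iff₀ (by positivity) (by positivity)]
      have b4 := mul_le_mul hhh b1 b2.le hh'.le
      have b5 := mul_le_mul_of_nonneg_left b4 hδ.le
      linarith
  · have b1 := mul_le_mul_of_nonneg_right hE1 ha0
    have b2 := mul_le_mul_of_nonneg_right hρ ha0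
    have b3 := mul_le_mul_of_nonneg_right (mul_le_mul_of_nonneg_left hηc (by linarith : 0 ≤ A)) hν0
    have b4 := mul_le_mul_of_nonneg_right (by linarith : 1 ≤ C) (add_nonneg hD0 hb0)
    rw [← mul_assoc, ← hA]
    linarith
  · simp only [stepI, add_sub_cancel_left]
    refine (mul_le_mul_of_nonneg_left (abs_sum_le_sum_abs _ _) hδ.le).trans ?_
    rw [mul_sum]
    refine (sum_le_sum fun U hU => (hcon U (mem_filter.1 hU).2.1 i (mem_filter.1 hU).2.2).1.trans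
      (mul_le_mul_of_nonneg_left (hrem U) h60)).trans ?_
    rw [← mul_sum, sum_add_distrib]
    refine (mul_le_mul_of_nonneg_left (add_le_add
      (R8.sum_mem_le (by positivity) (fun _ => pI_nonneg _) aK (s i).1 _ fun U hU =>
        (mem_filter.1 hU).2.2)
      (R8.sum_mem_le (by positivity) hn0 hn (s i).1 _ fun U hU => (mem_filter.1 hU).2.2)) h60).trans ?_
    have b1 : Cn * δ * (a + D + b) ≤ 1 / 8 * (a + D + b) :=
      (le_mul_of_one_le_left hν0 (by linarith)).trans hν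
    have b2 := mul_le_mul_of_nonneg_left (by linarith : a + Cn * δ * (a + D + b) ≤ 2 * (a + D + b)) h60
    have b3 := mul_le_mul_of_nonneg_right (by linarith : 2 * (C₆ * c') ≤ C) hs0
    linarith

end Vale.Agent.P144C
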