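import Vale.Agent.P144C.E.Gen
import Vale.Agent.P144C.E.Step

/-!
The engine for marks at corners.
-/

namespace Vale.Agent.P144C

theorem genA2 : GenA2 := genA2_of step_I2

end Vale.Agent.P144C
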