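import Vale.Agent.P144C.E.Defs

/-!
Sign changes at corners: the factors of the insertions only depend on the geometry nearby.
-/

namespace Vale.Agent.P144C

open Finset Matrix Vale.Agent.P144Z Geo Mn R6 Vale.Agent.P144Z.IO.Ag Vale.Agent.P144Z.IV.Ag

set_option linter.unusedSectionVars false
set_option backward.isDefEq.respectTransparency false

section

variable {g g' : Geo} {m : FMap g g'}

theorem mkAt_pull2 (hs : Function.Surjective m.pull) {t : g.P × Fin 4} {ℓ ℓ' : ℕ} (hℓ : ℓ ≤ ℓ')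
    (hd : m.dep (3 * ℓ' + 4) t.1) {u : g'.P × Fin 4 → ℝ} {ν ν' c η : ℝ}
    (h : MkAt2 g'.A ℓ ℓ' (m.φ t.1, m.y.π t.2) u ν ν' c η) :
    MkAt2 g.A ℓ ℓ' t ((m.ε t.1 * m.y.σ t.2) • m.pull u) ν ν' c η where
  one := by rw [Pi.smul_apply, FMap.pull, h.one, mul_one, smul_eq_mul, sgn_sq]
  pos := h.pos
  pos' := h.pos'
  dom := dom_pull hs (Iso.le hd (by omega)) h.dom
  dom' := dom_pull hs (Iso.le hd (by omega)) h.dom'
  test := by
    rw [hsq_sign _ _ _ (sgn_sq t), FMap.hsq_pull (Iso.le hd (by omega))]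
    exact h.test
  rank w := by
    obtain ⟨w', rfl⟩ := hs w
    have e : m.pull w' - m.pull w' t • (m.ε t.1 * m.y.σ t.2) • m.pull u =
        m.pull (w' - w' (m.φ t.1, m.y.π t.2) • u) := funext fun r => by
      simp only [FMap.pull, Pi.sub_apply, Pi.smul_apply, smul_eq_mul]
      linear_combination (-(w' (m.φ t.1, m.y.π t.2) * (m.ε r.1 * m.y.σ r.2 *
        u (m.φ r.1, m.y.π r.2)))) * sgn_sq (m := m) t
    rw [e, FMap.hsq_pull (Iso.le hd (by omega)), FMap.hsq_pull (Iso.le hd (by omega))]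
    exact h.rank w'
  le := h.le
  ge := h.ge

theorem mkCh_pull2 (hs : Function.Surjective m.pull) {t : g.P × Fin 4} {L J : ℕ} (hL : 1 ≤ L)
    (hJ : 1 ≤ J) (hd : m.dep (3 * sc L J + 4) t.1) {u : ℕ → g'.P × Fin 4 → ℝ} {ν : ℕ → ℝ}
    {c η : ℝ} (h : MkCh2 g'.A L J (m.φ t.1, m.y.π t.2) u ν c η) :
    MkCh2 g.A L J t (fun j => (m.ε t.1 * m.y.σ t.2) • m.pull (u j)) ν c η where
  zero := mkAt_pull2 hs (sc_mono hL (by omega))
    (Iso.le hd (by have := sc_mono hL hJ; omega)) h.zero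
  nu0 := h.nu0
  pos j h1 h2 := mkAt_pull2 hs (sc_mono hL (by omega))
    (Iso.le hd (by have := sc_mono hL (show j + 1 ≤ J from h2); omega)) (h.pos j h1 h2)
  hom j h1 h2 := hom_pull (Iso.le hd (by have := sc_mono hL (show j + 1 ≤ J from h2); omega))
    (h.hom j h1 h2) _

end

theorem agreeV2 {g : Geo} {A' : Gauge g.M} {L T : ℕ} {q : Par} (hL : 8 ≤ L) (hJ : 1 ≤ g.J)
    (hg : g.OkW) (hA' : IsW A') (hq : q.Ok) (hR : 16 * (q.R + 1) ≤ g.M) (hT : 7 * sc L g.J ≤ T)
    (hM : 4 * T + 1 ≤ g.M) {k : ℕ} {s : Fin k → g.P × Fin 4}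
    (he : ∀ i, ∃ ε : g.P → ℝ, IsSign ε ∧ ∀ x d, tdist x (s i).1 ≤ T →
      tdist (x + uv g.M d) (s i).1 ≤ T → A' (x, d) = ε x * ε (x + uv g.M d) * g.A (x, d))
    (hfar : ∀ i κ, 7 * sc L g.J < tdist (g.src κ).y (s i).1)
    {u : Fin k → ℕ → g.P × Fin 4 → ℝ} {ν : Fin k → ℕ → ℝ} {c η : ℝ}
    (hu : MkPre2 (bare g A') s u ν L c η) :
    ∃ u' : Fin k → ℕ → g.P × Fin 4 → ℝ, MkPre2 g s u' ν L c η ∧
      ∀ v : Cor g.M, v.Ok → ∀ (o : ℝ) (O : Fin k → g.Cfg → ℝ) (K : ℕ), LocO s K O →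
        (g.flowV s L q v o O K u' g.J).z = ((bare g A').flowV s L q v o O K u g.J).z := by
  have h8 := R6.eight_le_sc (by omega : 1 ≤ L) g.J
  have hm : ∀ i, ∃ m : FMap g (bare g A'),
      W.R6.IdC (g' := bare g A') 0 0 q (s i).1 (s i).1 (6 * sc L g.J) (fun _ => none) m := by
    intro i
    obtain ⟨ε, hε, h⟩ := he i
    exact (W.R6.exists_trC hg.src (MN.ok_bare hA').src (Cor.ok_zero _) hq.pot (by omega)
      (show _ ≤ g.M by omega) (matchC (by omega) hM hε h) (by omega) (srcs_none _ _ _ _)).imp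
      fun _ h => h.1
  choose m hm using hm
  have hφ : ∀ i x, (m i).φ x = x := fun i x => by
    rw [(hm i).id.hφ]
    exact R6.shf_self _ x
  have hπ : ∀ i a, (m i).y.π a = a := fun i a => by
    rw [(hm i).id.hy]
    rfl
  have hd : ∀ i, ∀ n ≤ 6 * sc L g.J, (m i).dep n (s i).1 := fun i n hn =>
    ((hm i).id.dep _ _).2 (by rw [tdist_self]; omega)
  have hk : ∀ i, Mk (m i) s s i := fun i =>
    ⟨by rw [(hm i).id.hy]; rfl, fun κ => by rw [(hm i).id.hκ], hd i 0 (Nat.zero_le _),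
      by rw [hφ, hπ], fun i' hi x hx e => by
        have h1 := hu.sep i' i hi
        have h2 := ((hm i).id.dep _ _).1 hx
        rw [hφ] at e
        rw [← e] at h2
        change 7 * sc L g.J < _ at h1
        omega⟩
  have hs : ∀ i, Function.Surjective (m i).pull := fun i w =>
    ⟨(m i).pull w, funext fun t => by
      rw [FMap.pull, hφ, hπ, FMap.pull, hφ, hπ, ← mul_assoc, sgn_sq, one_mul]⟩
  refine ⟨fun i j => ((m i).ε (s i).1 * (m i).y.σ (s i).2) • (m i).pull (u i j),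
    ⟨hu.sep, hfar, fun i => mkCh_pull2 (hs i) (by omega) hJ (hd i _ (by omega))
      ((hk i).eq ▸ hu.ch i)⟩, fun v hv o O K hO => funext fun i => ?_⟩
  have hη : ∀ n : g.Cfg, n ∘ (m i).η = n := fun n => funext fun e => by
    rw [Function.comp_apply, FMap.η, hφ, hπ, und_dr]
  have him : ∀ X : Finset g.P, X.image (m i).φ = X := fun X =>
    (image_congr fun x _ => hφ i x).trans image_id
  have hc : W.R6.IdC (g' := bare g A') v v q (s i).1 (s i).1 (6 * sc L g.J) (fun _ => none)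
      (m i) := ⟨(hm i).id, hv, fun X _ n' => by rw [him, hη]⟩
  have hr : ∀ j ≤ g.J, (hk i).Rel (sc L j + 3)
      (g.flowV s L q v o O K
        (fun i j => ((m i).ε (s i).1 * (m i).y.σ (s i).2) • (m i).pull (u i j)) j)
      ((bare g A').flowV s L q v o O K u j) := fun j => by
    induction j with
    | zero =>
      refine fun _ => (rel_init (hk i) hg.src hv (fun X hX n' => ?_) (fun X hX => hc.W0 hX) o hO
        (fun n' => by rw [hη]) fun X _ => by rw [him]).le (Nat.zero_le _)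
      rw [HinC, HinC, map_add, map_smul, (m i).Φ_one, hc.cor X hX, hc.id.ini.hin hc.id.good hX]
    | succ j ih =>
      intro hj
      have h1 := hc.flow (L := L) (by omega) j (by simp)
      have h2 := two_sc_le (by omega : 2 ≤ L) j
      have h3 := sc_mono (by omega : 1 ≤ L) hj
      have h4 := R6.eight_le_sc (by omega : 1 ≤ L) j
      exact ((ih (by omega)).le (n' := sc L (j + 1) + 3) (by omega)).step h1.loc.H
        (fun X hX => h1.H (by omega) (hX.le (by omega))) (by omega) le_rfl (hd i _ (by omega)) rfl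
  exact (hr g.J le_rfl).z.symm

end Vale.Agent.P144C
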