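import Vale.Agent.P144C.Defs0

/-!
Sign changes at corners: the marked half-edges in a geometry.
-/

namespace Vale.Agent.P144C

open Finset Matrix Vale.Agent.P144Z

/-- `Geo.MkPre` for the new marks. -/
structure MkPre2 (g : Geo) {k : ℕ} (s : Fin k → g.P × Fin 4) (u : Fin k → ℕ → g.P × Fin 4 → ℝ)
    (ν : Fin k → ℕ → ℝ) (L : ℕ) (c η : ℝ) : Prop where
  sep : ∀ i i', i ≠ i' → 7 * sc L g.J < tdist (s i).1 (s i').1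
  far : ∀ i κ, 7 * sc L g.J < tdist (g.src κ).y (s i).1
  ch : ∀ i, MkCh2 g.A L g.J (s i) (u i) (ν i) c η

/-- The statement of the step with the new marks. -/
def StepI2 : Prop :=
  ∃ ε₁ > (0 : ℝ), ∀ c' : ℝ, 1 ≤ c' → ∃ η₁ > (0 : ℝ), ∃ L₀ : ℕ, ∀ L ≥ L₀,
    ∃ C : ℝ, 1 ≤ C ∧ ∀ g : Geo, IsW g.A → 16 * sc L g.J ≤ g.M → g.SepW (8 * sc L g.J) →
    ∀ c : ℝ, 1 ≤ c → c ^ 2 ≤ ε₁ * L → g.SchA L c → ∀ (k : ℕ) (s : Fin k → g.P × Fin 4)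
    (u : Fin k → ℕ → g.P × Fin 4 → ℝ) (ν : Fin k → ℕ → ℝ), MkPre2 g s u ν L c' η₁ →
    ∀ j < g.J, g.StepI s u ν L j C (if j = 0 then C else 1 / 4)

end Vale.Agent.P144C
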