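import Vale.Agent.P144C.E.Sk

/-!
Sign changes at corners: the bounds on the flows.
-/

namespace Vale.Agent.P144C

open Finset Matrix Vale.Agent.P144Z Geo W.FD FM Vale.Agent.P144Z.IO Vale.Agent.P144Z.IV

/-- The normalisation at the last scale. -/
theorem mk_last2 {M : ℕ} [NeZero M] {A : Gauge M} {L J : ℕ} {p : Tor M × Fin 4}
    {v : ℕ → Tor M × Fin 4 → ℝ} {μ : ℕ → ℝ} {c η : ℝ} (H : MkCh2 A L J p v μ c η) (hJ : 1 ≤ J) :
    0 < μ J ∧ Dom A (sc L J) p.1 (Pi.single p 1) (μ J) := by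
  obtain ⟨j, rfl⟩ : ∃ j, J = j + 1 := ⟨J - 1, by omega⟩
  rcases Nat.eq_zero_or_pos j with rfl | hj
  · exact ⟨H.zero.pos', H.zero.dom'⟩
  · exact ⟨(H.pos j hj (by omega)).pos', (H.pos j hj (by omega)).dom'⟩

variable {g : Geo} {k : ℕ} {s : Fin k → g.P × Fin 4}

/-- The bounds on the insertions from the initial step and the steps. -/
theorem flowV_of2 {L K Λ : ℕ} {q : Par} {v : Cor g.M} {h : ℕ → ℝ} {C δ η a A o w b H c η₁ : ℝ}
    {u : Fin k → ℕ → g.P × Fin 4 → ℝ} {ν : Fin k → ℕ → ℝ} {O : Fin k → g.Cfg → ℝ}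
    (hL1 : 1 ≤ L) (hg : g.OkW) (hv : v.Ok) (hr : Rad L h) (hJ : 1 ≤ g.J) (hM : g.M ≤ Λ * sc L g.J)
    (hC : 1 ≤ C) (hδ : 0 < δ) (d2 : C * δ ≤ 1) (d4 : δ ≤ 1 / 2)
    (hst : ∀ j < g.J, g.StepI s u ν L j C (if j = 0 then C else 1 / 4))
    (B1 : BgV g L q v h δ a) (B0 : Bg g L par0 h δ 0)
    (hch : ∀ i, MkCh2 g.A L g.J (s i) (u i) (ν i) c η₁) (hO : LocO s K O) (ho : |o| ≤ 1)
    (hη : 0 ≤ η) (e1 : η ≤ 1 / 4) (ha : 0 ≤ a) (hZ0 : 0 ≤ q.Z) (hZ : |q.Z - 1| ≤ η)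
    (hA : 2 * (C * η) + 8 * (C * a) ≤ A) (hE : 8 * (C * (A + 2 * a)) ≤ δ)
    (i1 : NormedSpace.exp (∑ U, Cl ((g.xt s).E0 (q.x * q.Z)) (g.HinV s q v o O K) U) =
      (g.xt s).E0 (q.x * q.Z) (NormedSpace.exp (∑ X, g.HinV s q v o O K X)))
    (i2 : SzI g s ν L h δ 0 (g.initV s q v o O K) η)
    (i3 : NormedSpace.exp (∑ U, Cl ((g.xt s).E0 (par0.x * par0.Z)) (g.HinI s par0 1 1 K) U) =
      (g.xt s).E0 (par0.x * par0.Z) (NormedSpace.exp (∑ X, g.HinI s par0 1 1 K X)))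
    (i4 : SzI g s ν L h δ 0 (g.initI s par0 1 1 K) 0) (hH : 0 < H) (hHh : H ≤ h g.J)
    (hw0 : 0 < w) (hw2 : w * h g.J ^ 2 ≤ δ) (hb : (32 * Λ + 1) ^ 2 * A ≤ b) :
    g.FlowV s L q v o O K u ν w b H := by
  have hL0 : (0 : ℝ) < L := by exact_mod_cast hL1
  have hh1 : 1 ≤ h g.J := (one_le_pow₀ (by exact_mod_cast hL1)).trans (hr.lo _)
  have hh0 : 0 < h g.J := by linarith
  have hw3 : w * h g.J ≤ δ := le_trans (mul_le_mul_of_nonneg_left (by nlinarith) hw0.le) hw2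
  have h8 := eight_le_sc hL1 g.J
  have hs0 : (0 : ℝ) < sc L g.J := by positivity
  have hO1 : LocO s K (1 : Fin k → g.Cfg → ℝ) := fun _ _ _ _ => rfl
  have hz0 : ∀ i, |(g.flowV s L q v o O K u 0).z i - o| ≤ η := fun i => by
    change |√q.Z * o - o| ≤ η
    rw [← sub_one_mul, abs_mul]
    exact (mul_le_mul ((sqrt_sub_one_le hZ0).trans hZ) ho (abs_nonneg _) hη).trans (mul_one η).le
  have hz00 : ∀ i, (g.flowI s L par0 1 1 K u 0).z i = 1 := fun i => by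
    change √par0.Z * 1 = 1
    simp [par0]
  have wf := wf_flowV hg L q hv o hO u
  have wf0 := wf_flowI hg L par0 1 hO1 u
  obtain ⟨f1, f2, f3⟩ := ind_V (a₀ := η) (A := A) hg hv hr hC hδ d2 hst B1 wf ha hη hA hE i2
    (fun i => by
      have k1 := abs_add_le ((g.flowV s L q v o O K u 0).z i - o) o
      rw [sub_add_cancel] at k1
      linarith [hz0 i])
  obtain ⟨f4, f5, f6⟩ := ind_I (a₀ := 0) (A := 0) hg hr hC hδ d2 hst B0 wf0 le_rfl le_rfl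
    (by simp) (by simpa using hδ.le) i4 (fun i => by rw [hz00]; norm_num)
  rw [zero_div] at f5
  have hν := fun i => mk_last2 (hch i) hJ
  have hβ := beta_pos hL1 hδ hh0 g.J
  have hw5 : ∀ i, 0 < δ / (h g.J * ν i g.J) := fun i => div_pos hδ (mul_pos hh0 (hν i).1)
  have hw6 : ∀ i, 0 < w / ν i g.J := fun i => div_pos hw0 (hν i).1
  refine ⟨⟨i1, f1⟩, ⟨i3, f4⟩, ?_, ?_, fun i => ?_, fun i => ?_⟩
  · have k1 : (g.flowI s L par0 1 1 K u g.J).z = fun _ => 1 := by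
      funext i
      have k2 := f6 i
      rw [hz00, mul_zero, add_zero, mul_zero, mul_zero] at k2
      exact sub_eq_zero.1 (abs_nonpos_iff.1 (le_of_mul_le_mul_left (k2.trans (mul_zero δ).ge) hδ))
    simp only [StI.Y, K_eq_zero (by omega) hh0 hβ hw5 (wf0 _) f5, zero_add, sum_carI, k1, one_smul]
  · refine (pI_mono (by omega) hH (by positivity) hw6 hHh ?_ (fun i => ?_) subset_rfl
      (sum_mem fun X _ => elI_mono (subset_univ _) ((wf _).mem X))).trans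
      ((pI_sum (by omega) hh0 hβ hw5 hM hL0.le (wf _) f2).trans ?_)
    · rw [le_div_iff₀ (by positivity), mul_right_comm]
      exact mul_le_mul_of_nonneg_right hw2 hs0.le
    · rw [← div_div]
      refine div_le_div_of_nonneg_right ?_ (hν i).1.le
      rwa [le_div_iff₀ hh0]
    · rw [← mul_div_assoc]
      gcongr
  · have k2 : |(g.flowV s L q v o O K u g.J).z i - (g.flowV s L q v o O K u 0).z i| ≤ 1 / 4 :=
      le_of_mul_le_mul_left ((f3 i).trans (by linarith)) hδ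
    have k3 := abs_sub_le ((g.flowV s L q v o O K u g.J).z i) ((g.flowV s L q v o O K u 0).z i) o
    linarith [hz0 i]
  · refine (pI_eI (by omega) hH (by positivity) hw6 (hν i).1.le (hν i).2 (mem_univ _)).trans ?_
    have k1 := (hν i).1.ne'
    rw [show w / ν i g.J * (H * ν i g.J) = w * H by field_simp]
    exact (mul_le_mul_of_nonneg_left hHh hw0.le).trans (hw3.trans d4)

/-- The bounds on the flows for the classes of an engine. -/
theorem flowSU2 (hS : StepI2) : FlowSU2 := by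
  obtain ⟨ε₁, hε₁, hS⟩ := hS
  refine ⟨ε₁, hε₁, fun c' hc' => ?_⟩
  obtain ⟨η₁, hη₁, L₀, hS⟩ := hS c' hc'
  refine ⟨η₁, hη₁, max L₀ 16, fun L hL G ⟨δ₁, hδ₁, A, hA, σ₁, hσ₁, η₃, hη₃, hE⟩ => ?_⟩
  have hL16 : 16 ≤ L := le_of_max_le_right hL
  have hL1 : 1 ≤ L := by omega
  have hL0 : (0 : ℝ) < L := by exact_mod_cast hL1
  have h2 : (1 : ℝ) ≤ (L : ℝ) ^ 2 := one_le_pow₀ (by exact_mod_cast hL1)
  obtain ⟨C, hC, hS⟩ := hS L (le_of_max_le_left hL)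
  obtain ⟨β₁, hβ₁, hI0⟩ := init_I L ((L : ℝ) ^ 2) hL0.le (by positivity)
  obtain ⟨β₂, hβ₂, σ₂, hσ₂, hI⟩ := init_VU L ((L : ℝ) ^ 2) hL0.le (by positivity)
  obtain ⟨δ, hδ, d1, d2, d3, d4⟩ := exists_delta hδ₁ hC (lt_min hβ₁ hβ₂)
  obtain ⟨E, hEd, hE1⟩ : ∃ E, E = C * (2 * C + 8 * (C * A) + 2 * A) ∧ A ≤ E := by
    have h3 : 0 ≤ 2 * C + 8 * (C * A) := by positivity
    exact ⟨_, rfl, le_trans (by linarith) (le_mul_of_one_le_left (by positivity) hC)⟩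
  have hE2 : 0 < E := by linarith
  refine ⟨2 * A + 60000, by linarith, max σ₁ σ₂, le_max_of_le_left hσ₁,
    min η₃ (min (1 / 20) (δ / (8 * E))), by positivity, fun η hη hη0 R => ?_⟩
  have e1 : η ≤ 1 / 20 := hη0.trans ((min_le_right _ _).trans (min_le_left _ _))
  have e2 : 8 * (E * η) ≤ δ := by
    rw [← mul_assoc, mul_comm, ← le_div_iff₀ (by positivity)]
    exact hη0.trans ((min_le_right _ _).trans (min_le_right _ _))
  have e5 : A * η ≤ E * η := mul_le_mul_of_nonneg_right hE1 hη.le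
  have e6 : 0 ≤ A * η := by positivity
  have e7 : η / (2 * A + 60000) ≤ η / 60000 := by gcongr; linarith
  obtain ⟨δ₃, hδ₃, hE⟩ := hE η hη (hη0.trans (min_le_left _ _)) R
  obtain ⟨C₀, hC₀, hI0⟩ := hI0 0
  obtain ⟨CR, hCR, hI⟩ := hI R
  refine ⟨min δ₃ (η / (3 * CR)), by positivity, fun q hR hq Z hz1 hz2 m Q hG => ?_⟩
  replace hE := hE q hR ⟨hq.ok, hq.small.trans (min_le_left _ _), hq.bulk, hq.x, hq.Z⟩ m Q hG
  have hq4 : q.Small (η / (3 * CR)) := hq.small.trans (min_le_right _ _)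
  have e8 : 2 * (A * η) ≤ (2 * A + 60000) * η := by linarith
  refine ⟨FlU.flowQ_of hL16 hq.ok hδ₁ e6 e8 (FlU.early_mono hE (le_max_left _ _) le_rfl) hz1 hz2,
    fun c hc1 hc2 K => ?_⟩
  replace hE := FlU.early_mono (γ' := η / (2 * A + 60000)) hE (le_max_left σ₁ σ₂) (by linarith)
  have hD := FlU.flowQ_of hL16 hq.ok hδ₁ e6 e8 hE hz1 hz2
  obtain ⟨C₀', hC₀', hI0⟩ := hI0 K
  obtain ⟨CK, hCK, hI⟩ := hI K
  refine ⟨η / (3 * CK), by positivity, fun Λ H hH => ?_⟩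
  have e3 : CR * (η / (3 * CR)) + 20000 * (η / 60000) + CK * (η / (3 * CK)) = η := by
    field_simp
    norm_num
  obtain ⟨w₂, hw₂, b₂, hb₂, J₂, hD⟩ := hD Λ H hH
  obtain ⟨p, hp⟩ := pow_unbounded_of_one_lt H (one_lt_two (α := ℝ))
  have hr := rad_min hL1 p
  obtain ⟨w, hw0, hw1, hw2⟩ : ∃ w > 0, w ≤ w₂ ∧ w * ((L : ℝ) ^ 2 * 2 ^ p) ^ 2 ≤ δ :=
    ⟨min w₂ (δ / ((L : ℝ) ^ 2 * 2 ^ p) ^ 2), by positivity, min_le_left _ _, by
      rw [← le_div_iff₀ (by positivity)]; exact min_le_right _ _⟩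
  refine ⟨w, hw0, b₂ + (32 * Λ + 1) ^ 2 * (2 * (C * η) + 8 * (C * (A * η))), by positivity,
    max (max J₂ p) (K + 1), fun g hJ hg hm hQ hM v hv hvo hvl => ⟨flowD_mono hL1 hg.ok hv hH hw0 hw1
      (le_add_of_nonneg_right (by positivity))
      (hD g (le_of_max_le_left (le_of_max_le_left hJ)) hg hm hQ hM v hv hvo hvl),
      fun hsch k s u ν o O hpre hO ho hθ => ?_⟩⟩
  have hJp : p ≤ g.J := le_of_max_le_right (le_of_max_le_left hJ)
  have hJK : K + 1 ≤ g.J := le_of_max_le_right hJ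
  have h8 := eight_le_sc hL1 g.J
  have hK : K ≤ sc L g.J := le_sc_of_lt (by omega) hJK
  have hc0 := crit_par0 L 0 0 le_rfl le_rfl
  have hsep : ∀ i i', i ≠ i' → 2 * K < tdist (s i).1 (s i').1 := fun i i' hi => by
    have := hpre.sep i i' hi
    omega
  have hfar : ∀ i κ, 8 < tdist (g.src κ).y (s i).1 := fun i κ => by
    have := hpre.far i κ
    omega
  have hβ0 : 0 < δ * (8 : ℕ) / ((L : ℝ) ^ 2) ^ 2 := by positivity
  have hβ1 : δ * (8 : ℕ) / ((L : ℝ) ^ 2) ^ 2 ≤ min β₁ β₂ :=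
    (div_le_self (by positivity) (one_le_pow₀ h2)).trans (by push_cast; linarith)
  have hw4 : ∀ i, 0 < δ / ((L : ℝ) ^ 2 * ν i 0) ∧ δ / ((L : ℝ) ^ 2 * ν i 0) ≤ min β₁ β₂ :=
      fun i => by
    have k1 : (1 : ℝ) ≤ √8 := Real.one_le_sqrt.2 (by norm_num)
    rw [(hpre.ch i).nu0]
    exact ⟨by positivity, (div_le_self hδ.le (one_le_mul_of_one_le_of_one_le h2 k1)).trans
      (by linarith)⟩
  obtain ⟨i1, i2⟩ := hI q hR hq.ok _ _ _ hq4 (by positivity) (by rw [e3]; linarith) g hg.ok hg.on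
    (FlU.src_far hL1 hg) v hv (hvl.mono (le_max_right _ _) e7) k s o O hO ho hθ hsep hfar _ _ hβ0
    (hβ1.trans (min_le_right _ _)) fun i => ⟨(hw4 i).1, (hw4 i).2.trans (min_le_right _ _)⟩
  obtain ⟨i3, i4⟩ := hI0 par0 rfl hc0.ok 0 0 hc0.small le_rfl (by simp) g hg.ok hg.on
    (FlU.src_far hL1 hg) k s 1 1 (fun _ _ _ _ => rfl) (by simp) (by simp) hsep hfar _ _ hβ0
    (hβ1.trans (min_le_left _ _)) fun i => ⟨(hw4 i).1, (hw4 i).2.trans (min_le_left _ _)⟩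
  obtain ⟨H1, H0⟩ := hE g _ hg hm hQ hr
  refine flowV_of2 hL1 hg.ok hv hr (by omega) hM hC hδ d2 d4
    (hS g hg.ok.sign hg.M_le hg.sep c hc1 hc2 hsch k s u ν hpre)
    (bgV_of hL1 hg.ok hv hr (H1 v hv hvo hvl) hδ d1 e6 (by linarith) (z0_le e1 hq.x hq.Z))
    (bg_of hL1 hg.ok hr H0 hδ d1 le_rfl (by linarith)
      (z0_le (η := 0) (by norm_num) hc0.x hc0.Z))
    hpre.ch hO ho hη.le (by linarith) e6 (by linarith [hq.ok.Z_lo]) hq.Z le_rfl ?_ i1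
    (szI_zero hr i2 e3.le) i3 (szI_zero hr i4 (by simp)) hH ?_ hw0 ?_
    (le_add_of_nonneg_left hb₂.le)
  · refine le_trans (le_of_eq ?_) e2
    rw [hEd]
    ring
  · simp only [min_eq_right hJp]
    exact hp.le.trans (le_mul_of_one_le_left (by positivity) h2)
  · simpa only [min_eq_right hJp] using hw2

end Vale.Agent.P144C
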