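import Vale.Agent.P144C.E.Sk
import Vale.Agent.P144C.E.Agree

/-!
Sign changes at corners: from the flows to the main estimates.
-/

namespace Vale.Agent.P144C

open Finset Matrix Vale.Agent.P144Z Geo UM Mn Vale.Agent.P144Z.IO Vale.Agent.P144Z.IV

theorem nu_pos2 {M : ℕ} [NeZero M] {A : Gauge M} {L J : ℕ} {s : Tor M × Fin 4}
    {u : ℕ → Tor M × Fin 4 → ℝ} {ν : ℕ → ℝ} {c η : ℝ} (h : MkCh2 A L J s u ν c η) (hJ : 2 ≤ J) :
    0 < ν J := by
  obtain ⟨j, rfl⟩ : ∃ j, J = j + 1 := ⟨J - 1, by omega⟩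
  exact (h.pos j (by omega) (by omega)).pos'

theorem mainJU_of2 {L m : ℕ} {q : Par} {Z a b σ c c' η₁ η δ : ℝ} {Q : Cls} (hL : 64 ≤ L)
    (hq : q.Ok) (ha : 0 ≤ a) (hZ : 1 / 2 ≤ Z) (hF : MN.Pl L q Z a b) (hσ : MN.Sg L q Z a b σ)
    (hQ : Q.Sch L c) (hD : FlowQV2 Q q L m η δ Z a c c' η₁) :
    MainJU2 Q q (Real.exp σ) Z L m c' η₁ η δ := by
  classical
  intro K
  obtain ⟨θ, hθ, hD⟩ := hD K
  refine ⟨θ, hθ, fun N Λ Γ hΓ => ?_⟩
  obtain ⟨Cg, hCg, hg⟩ := LM.lastB_gap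
  obtain ⟨Ce, hCe, he⟩ := lastE_gap
  have g1 : Cg * Γ ≤ (Cg + Ce) * Γ := by nlinarith
  have g2 : Ce * Γ ≤ (Cg + Ce) * Γ := by nlinarith
  have hh : 0 < (Cg + Ce) * Γ := by positivity
  obtain ⟨w, hw, b', hb', J₁, hD⟩ := hD Λ _ hh
  obtain ⟨w₂, J₂, hR⟩ := MN.exists_ref hL hq hF
  set W := (1 + 1 / w) ^ (2 * N) with hW
  have hW0 : 0 < W := by positivity
  refine ⟨W * (2 ^ N * Real.exp (5 * N)), fun ε hε => ?_⟩
  set t := W * (Real.exp (N * |σ|) * Real.exp (5 * N) * 10) with ht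
  have ht0 : 0 < t := by positivity
  obtain ⟨J₃, hJ₃⟩ := MN.small_e (8 * N + 1) (Real.exp 1) (2 * b') (MN.cE L Λ N N * a)
    (ε := min (1 / 2) (ε / t)) (by positivity)
  refine ⟨max (max J₁ J₂) (max J₃ (q.R + 2)),
    fun J hJ M _ P v k s u ν o O hv hoff hle hk hs hO ho hθ' => ?_⟩
  simp only [ge_iff_le, max_le_iff] at hJ
  obtain ⟨⟨k1, k2⟩, k3, k4⟩ := hJ
  set z₀ := ((bare (geoD M P (ι := Empty) Empty.elim Empty.elim J) P).flowV s L q v o O K u J).z
    with hz₀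
  refine ⟨fun i => if |z₀ i - o| ≤ 1 / 2 then z₀ i else o, fun i => ?_,
    fun B ι _ _ y d n K' hm D hgap hK => ?_⟩
  · beta_reduce
    split_ifs with h1
    · exact h1
    · simp
  have D0 := dom0_of (by omega) D
  rw [mixJV_eq q v P B s O y d J, mixJ_eq par0 P B s 1 y d J]
  set g := geoD M (P * B) y d J with hg0
  have h3 : J < sc L J := by
    have := Nat.lt_pow_self (n := J) (show 1 < L by omega)
    unfold sc
    omega
  have h4 := sc_mono (L := L) (by omega) (show 1 ≤ J by omega)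
  have h5 : sc L 1 = 8 * L := by simp [sc]
  have hlo := D.lo
  have h6 : 16 * sc L J ≤ M := by omega
  have h7 : 16 * (q.R + 1) ≤ M := by omega
  obtain ⟨s0, s1⟩ := sepW_bare (g := g) D0
  have q2 := hQ g D0.ok h6 D.sep D.bd
  obtain ⟨F, FI⟩ := hD g k1 ⟨D0.ok, D0.on, h6, h7, D.sep⟩ hm D.bd D.hi v hv
    (fun X hX => hoff X fun x hx => (D0.fl x).trans (by rw [hX x hx, ite_self])) hle
  have F0 := (hD (bare g P) k1 ⟨MN.ok_bare D0.w, fun i => i.elim, h6, h7, s0⟩ (card_bare g P m)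
    D.bd0 D.hi v hv hoff hle).1
  have F1 := fun i => (hD (one g P i) k1 ⟨MN.ok_one D0.ok D0.w i, fun _ => D0.on i, h6, h7, s1 i⟩
    (card_one g P i hm) D.bd0 D.hi v hv hoff hle).1
  have far := fun i => far_rem (g := g) D0 (by omega) (s := s i)
    (mul_eq_zero_of_left (hs.rem i) _)
  obtain ⟨u', hu', hz⟩ := agreeV2 (g := g) (A' := P) (T := 7 * sc L J) (by omega)
    (by change 1 ≤ J; omega) D0.ok D0.w hq h7 le_rfl (by change _ ≤ M; omega) (s := s)
    (fun i => D0.eqv (s i).1 _ (by omega) (far i).2) (fun i => (far i).1) (u := u) (ν := ν)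
    ⟨fun i i' e => lt_of_le_of_lt (by change 7 * sc L J ≤ _; omega) (hs.sep i i' e),
      fun _ κ => κ.elim, hs.ch⟩
  replace FI := FI q2 k s u' ν o O hu' hO ho hθ'
  have hz' : (fun i => if |z₀ i - o| ≤ 1 / 2 then z₀ i else o) =
      (g.flowV s L q v o O K u' g.J).z := by
    have e : z₀ = (g.flowV s L q v o O K u' g.J).z := (hz v hv o O K hO).symm
    funext i
    rw [e, if_pos (FI.z i)]
  obtain ⟨G, A₀, N₀, f₀, hG, hf₀, D₀⟩ := hR J k2 _ le_rfl D0.hi
  have hn : n ≤ N ∧ Fintype.card ι ≤ N := by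
    have h1 : n ≤ (univ.filter fun f => flux B f = -1).card := by
      rw [← D.cnt]
      exact card_le_card fun f hf =>
        mem_filter.2 ⟨mem_univ _, Both.flux_B D.P_ok D.str.sign (mem_filter.1 hf).2⟩
    have := D.card
    omega
  have hν := fun i => nu_pos2 (hs.ch i) (by omega)
  have n1 : (n : ℝ) ≤ N := by exact_mod_cast hn.1
  have n2 : (Fintype.card ι : ℝ) ≤ N := by exact_mod_cast hn.2
  have n3 : (k : ℝ) ≤ N := by exact_mod_cast hk
  obtain ⟨r1, r2⟩ := finalV (g := g) (A' := P) (n := n) (σ := σ) (m := Fintype.card ι)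
    (e := min (1 / 2) (ε / t)) D0.ok D0.on D0.w D0.ne (by omega) hq hv hw hb'.le hh hO ho hν F FI F0
    F1
    (he (g.xt s) D0.ok.sign _ (by omega) Γ hΓ hgap _ g2)
    (hg (bare g P) D0.w _ (by omega) Γ hΓ D.gap _ g1)
    (fun i => hg (one g P i) D0.w _ (by omega) Γ hΓ D.gap _ g1)
    (WW_zero D0 (by omega) (by omega) F F0 F1)
    (err_sigV (g := g) D0 hv (by omega) (by change 80 ≤ 8 * sc L J; omega) hq h7 hw ha F F0 F1
      fun f hf => by
        have h1 := hσ _ _ _ _ _ _ _ D₀ _ hf₀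
        rw [← ss_eq D0 hq h7 hv hoff D₀ hG hf hf₀, hG] at h1
        exact h1) rfl
    (le_trans (by
      have a0 : 0 ≤ Real.exp (2 * (b' / 2 ^ J)) - 1 :=
        sub_nonneg.2 (Real.one_le_exp (by positivity))
      have a1 := cE_le (L := L) (Λ := Λ) hn.1 hn.2
      rw [mul_div_assoc 2]
      change _ * (_ * (Real.exp (2 * (b' / 2 ^ J)) - 1)) +
        MN.cE L Λ n (Fintype.card ι) * a / 2 ^ J ≤ _
      gcongr) (hJ₃ J k3)) (min_le_left _ _)
  have hy := abs_pos.2 D0.ne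
  have y1 : |Zw par0 (g.xt s).A 1| / |Zw par0 P 1| ≤ K' := (div_le_iff₀ hy).2 hK
  have y0 : 0 ≤ |Zw par0 (g.xt s).A 1| / |Zw par0 P 1| := by positivity
  have hl : (0 : ℝ) < sc L J := by exact_mod_cast (by omega : 0 < sc L J)
  have hp : 0 < ∏ i, ν i J := prod_pos fun i _ => hν i
  have x1 : Real.exp (4 * Fintype.card ι + k) ≤ Real.exp (5 * N) := Real.exp_le_exp.2 (by linarith)
  have x2 : Real.exp (n * σ) ≤ Real.exp (N * |σ|) := Real.exp_le_exp.2
    ((mul_le_mul_of_nonneg_left (le_abs_self σ) (Nat.cast_nonneg n)).trans (by gcongr))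
  have hK0 := y0.trans y1
  replace r1 := r1.trans (mul_le_mul_of_nonneg_left y1 (by positivity))
  replace r2 := r2.trans (mul_le_mul_of_nonneg_left y1 (by positivity))
  rw [hz']
  constructor
  · refine (div_out (N := 2 * N) hw hl hν (abs_nonneg _) (by omega) r1).trans ?_
    have e0 : 0 ≤ min (1 / 2) (ε / t) := by positivity
    have e1 := (le_div_iff₀ ht0).1 (min_le_right (1 / 2) (ε / t))
    generalize min (1 / 2) (ε / t) = e at e0 e1 ⊢
    calc _ ≤ W * (Real.exp (N * |σ|) * Real.exp (5 * N) * (10 * e) * K') /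
          (sc L J : ℝ) ^ Fintype.card ι * ∏ i, ν i J := by gcongr
      _ = e * t / (sc L J : ℝ) ^ Fintype.card ι * (K' * ∏ i, ν i J) := by rw [ht]; ring
      _ ≤ _ := by gcongr
  · have z1 : 1 ≤ 2 ^ N * |Z ^ Fintype.card ι| := by
      have z2 : (2 : ℝ) ^ Fintype.card ι ≤ 2 ^ N := pow_le_pow_right₀ one_le_two hn.2
      refine le_trans ?_ (mul_le_mul_of_nonneg_right z2 (abs_nonneg _))
      rw [abs_of_nonneg (by positivity), ← mul_pow]
      exact one_le_pow₀ (by linarith)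
    have z3 := div_out (N := 2 * N) hw hl hν (abs_nonneg _) (by omega) r2
    rw [abs_mul] at z3
    refine (le_mul_of_one_le_left (abs_nonneg _) z1).trans ?_
    rw [mul_assoc]
    refine (mul_le_mul_of_nonneg_left z3 (by positivity)).trans ?_
    calc _ ≤ 2 ^ N * (W * (Real.exp (5 * N) * K') / (sc L J : ℝ) ^ Fintype.card ι *
          ∏ i, ν i J) := by gcongr
      _ = _ := by ring

theorem mainSU2 : MainSU2 := fun _ _ _ _ _ _ _ _ _ _ hL hq ha =>
  ⟨UM.enU_of hL hq ha, fun hZ hF hσ => ⟨UM.mainU_of hL hq ha hZ hF hσ,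
    fun _ _ _ hQ hD => mainJU_of2 hL hq ha hZ hF hσ hQ hD⟩⟩

end Vale.Agent.P144C
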