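import Vale.Agent.P144C.E.Flow
import Vale.Agent.P144C.E.Main
import Vale.Agent.P144U.Rg.Wt

/-!
Sign changes at corners: universality for the classes of an engine.
-/

namespace Vale.Agent.P144C

open Finset Filter Topology Vale.Agent.P144Z W.R5 GU AN

section

variable {Q : Cls} {q : Par} {Zσ Zε Z a a' c c' η₁ σ γ : ℝ} {L m : ℕ}

theorem flowQV_mono2 (h : FlowQV2 Q q L m σ γ Z a c c' η₁) (ha : a ≤ a') :
    FlowQV2 Q q L m σ γ Z a' c c' η₁ := fun K => by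
  obtain ⟨θ, hθ, h⟩ := h K
  refine ⟨θ, hθ, fun Λ H hH => ?_⟩
  obtain ⟨w, hw, b, hb, J₀, h⟩ := h Λ H hH
  exact ⟨w, hw, b, hb, J₀, fun g a1 a2 a3 a4 a5 u a6 a7 a8 =>
    (h g a1 a2 a3 a4 a5 u a6 a7 a8).imp_left fun H => flowD_mono H ha⟩

theorem univJK2 (h : UnivJU2 Q q Zσ Zε L (m + 1) c' η₁) : UnivJK2 Q q Zσ Zε L c' η₁ m := by
  obtain ⟨σ, γ, hσ, hγ, h1, h2⟩ := h
  intro K₁
  have e1 := one_le_eR hσ K₁
  have wt : ∀ {M : ℕ} [NeZero M] {v : Cor M}, v.Le K₁ (γ / eR σ K₁) → v.Wt σ γ := fun h =>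
    wt_mono (wt_le hσ h) (le_of_eq (by field_simp))
  refine ⟨γ / eR σ K₁, by positivity, fun K => ?_, fun N Λ Γ a1 ε hε => ?_⟩
  · obtain ⟨θ, hθ, h⟩ := h1 K
    refine ⟨θ, hθ, fun N Λ Γ hΓ => ?_⟩
    obtain ⟨C, h⟩ := h N Λ Γ hΓ
    refine ⟨C, fun ε hε => ?_⟩
    obtain ⟨J₀, h⟩ := h ε hε
    refine ⟨J₀, fun J hJ M _ P v k s u ν o O a1 a2 a3 a4 a5 a6 a7 a8 => ?_⟩
    obtain ⟨z, z1, z2⟩ := h J hJ M P v k s u ν o O a1 a2 (wt a3) a4 a5 a6 a7 a8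
    exact ⟨z, z1, fun B ι _ _ y d n K' b => z2 B ι y d n K' (b.trans m.le_succ)⟩
  · obtain ⟨J₀, h⟩ := h2 N Λ Γ a1 ε hε
    exact ⟨J₀, fun J hJ M _ P B Δ ι _ _ y d n b0 D b1 b2 b3 =>
      h J hJ M P B Δ 0 ι y d n (b0.trans (Nat.le_add_left 1 m)) D b1 (wt b2) b3 (Cor.ok_zero _)
        (wt_zero hγ.le) fun _ _ _ => rfl⟩

end

open Mn in
theorem genJA_of2 (hF : FlowSU2) (hM : MainSU2) : GenJA2 := by
  obtain ⟨ε₁, hε₁, hI⟩ := hF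
  obtain ⟨L₁, hL₁, hP⟩ := flowU
  refine ⟨ε₁, hε₁, fun c' hc' => ?_⟩
  obtain ⟨η₁, hη₁, L₂, hI⟩ := hI c' hc'
  refine ⟨η₁, hη₁, max (max L₁ L₂) 64, fun L hL G hG => ?_⟩
  simp only [ge_iff_le, max_le_iff] at hL
  obtain ⟨⟨l1, l2⟩, l3⟩ := hL
  obtain ⟨C, hC, ηa, hηa, hP⟩ := hP L l1
  obtain ⟨C', hC', σ, hσ, ηb, hηb, hI⟩ := hI L l2 G hG
  have key : ∀ ε > 0, ∃ η > 0, ∀ R : ℕ, ∃ δ > 0, ∀ q : Par, q.R = R → Crit L q η δ →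
      Ch L q ∧ |Real.exp (sg L q) - 1| < ε ∧ |ze L q - 1| < ε ∧
        MainOK q (Real.exp (sg L q)) (ze L q) ∧ ∀ (N : ℕ) (Q : Cls) (c : ℝ),
        1 ≤ c → c ^ 2 ≤ ε₁ * L → G N Q → Q.Sch L c →
          MainU Q q (Real.exp (sg L q)) (ze L q) L N σ η ∧ EnU Q q L N σ η ∧
            UnivJU2 Q q (Real.exp (sg L q)) (ze L q) L N c' η₁ := fun ε hε => by
    set E := C + C' with hE
    have hE0 : 0 < E := by linarith
    set η := min (min ηa ηb) (min ε 1 / (20000 * E)) with hη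
    have hm0 : 0 < min ε 1 := lt_min hε one_pos
    have hη0 : 0 < η := by positivity
    have hCη : E * η ≤ min ε 1 / 20000 := by
      calc E * η ≤ E * (min ε 1 / (20000 * E)) :=
            mul_le_mul_of_nonneg_left (min_le_right _ _) hE0.le
        _ = _ := by field_simp
    have hm1 := min_le_left ε 1
    have hm2 := min_le_right ε 1
    obtain ⟨m1, m2⟩ := le_min_iff.1 (min_le_left _ _ : η ≤ min ηa ηb)
    refine ⟨η, hη0, fun R => ?_⟩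
    obtain ⟨δa, hδa, hP⟩ := hP η hη0 m1 R
    obtain ⟨δb, hδb, hI⟩ := hI η hη0 m2 R
    refine ⟨min δa δb, by positivity, fun q hR hq => ?_⟩
    obtain ⟨Z, z1, z2, z3, hP⟩ := hP q hR (hq.mono le_rfl (min_le_left _ _))
    replace hI := hI q hR (hq.mono le_rfl (min_le_right _ _)) Z z2 z3
    have e1 : C * η ≤ E * η := mul_le_mul_of_nonneg_right (by linarith) hη0.le
    have e2 : C' * η ≤ E * η := mul_le_mul_of_nonneg_right (by linarith) hη0.le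
    have hP' : MN.Pl L q Z (E * η) C := fun N₀ Λ hΛ => by
      obtain ⟨w, hw, J₀, hP⟩ := hP N₀ Λ hΛ
      refine ⟨w, hw, J₀, fun J hJ r h1 h2 => ?_⟩
      obtain ⟨M₀, hP⟩ := hP J hJ r h1 h2
      exact ⟨M₀, fun g a1 a2 a3 N a4 a5 => (hP g a1 a2 a3 N a4 a5).mono e1 le_rfl⟩
    obtain ⟨w, J₀, h⟩ := MN.exists_ref l3 hq.ok hP'
    obtain ⟨s, hs, hs'⟩ := exists_sigma l3 (w := w) (J₀ := J₀) fun i => h (J₀ + i) (by omega) _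
      le_rfl (Nat.mul_le_mul_left _ (sc_mono (by omega) (by omega)))
    have hZ : 1 / 2 ≤ Z := by
      have := abs_le.1 z1
      linarith
    obtain ⟨ch, e3, e4⟩ := ch_of l3 hq.ok z3 hP' hs'
    rw [e3, e4]
    refine ⟨ch, ?_, by linarith, MN.main_plane l3 hq.ok hP' hs', fun N Q c hc hcL hQ hS => ?_⟩
    · have := Real.abs_exp_sub_one_le (x := s) (by linarith)
      linarith
    obtain ⟨k1, k2⟩ := hI N Q hQ
    obtain ⟨k3, k4⟩ := hM L N q Z (E * η) C s σ η Q l3 hq.ok (by positivity)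
    have k5 := k3 (flowQ_mono k1 e2)
    exact ⟨(k4 hZ hP' hs').1 (flowQ_mono k1 e2), k5, σ, η / C', hσ, by positivity,
      ((hM L N q Z (E * η) C s σ (η / C') Q l3 hq.ok (by positivity)).2 hZ hP' hs').2 c c' η₁ hS
        (flowQV_mono2 (k2 c hc hcL) e2), en_anti k5 le_rfl (div_le_self hη0.le hC')⟩
  refine ⟨fun N Q c h1 h2 hQ hS => ?_, fun ε hε => ?_⟩
  · obtain ⟨η, hη, h⟩ := key 1 one_pos
    obtain ⟨δ, hδ, h⟩ := h 0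
    obtain ⟨η', hη', -, hU⟩ := univ_of hσ hη
    obtain ⟨δ', hδ', hU⟩ := hU 0
    obtain ⟨-, -, -, -, h⟩ := h _ rfl (crit_par0 L _ _ hη.le hδ.le)
    obtain ⟨k1, k2, k3⟩ := h N Q c h1 h2 hQ hS
    exact ⟨hU Q _ 1 1 L N rfl (crit_par0 L _ _ hη'.le hδ'.le) (main_par k1 hη.le) k2, _, _, k3⟩
  · obtain ⟨η, hη, h⟩ := key ε hε
    obtain ⟨η', hη', e, hU⟩ := univ_of hσ hη
    refine ⟨η', hη', fun R => ?_⟩
    obtain ⟨δ, hδ, h⟩ := h R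
    obtain ⟨δ', hδ', hU⟩ := hU R
    refine ⟨min δ δ', by positivity, fun q hR hq => ?_⟩
    obtain ⟨z0, z1, z2, z3, h⟩ := h q hR (hq.mono e (min_le_left _ _))
    refine ⟨z0, z1, z2, z3, fun N Q c h1 h2 hQ hS => ?_⟩
    obtain ⟨k1, k2, k3⟩ := h N Q c h1 h2 hQ hS
    exact ⟨hU Q q _ _ L N hR (hq.mono le_rfl (min_le_right _ _)) k1 k2, k3⟩

theorem genA_of2 (hE : EngT) (hG : GenJA2) : GenA2 := by
  obtain ⟨ε₀, hε₀, hE⟩ := hE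
  obtain ⟨ε₁, hε₁, hG⟩ := hG
  refine ⟨min ε₀ ε₁, by positivity, fun ε hε hε' c' hc' => ?_⟩
  obtain ⟨e1, e2⟩ := le_min_iff.1 hε'
  obtain ⟨L₁, hE⟩ := hE ε hε e1
  obtain ⟨η₁, hη₁, L₂, hG⟩ := hG c' hc'
  refine ⟨η₁, hη₁, max (max L₁ L₂) ⌈1 / ε⌉₊, fun L hL => ?_⟩
  simp only [ge_iff_le, max_le_iff] at hL
  obtain ⟨⟨l1, l2⟩, l3⟩ := hL
  obtain ⟨kf, hE⟩ := hE L l1
  obtain ⟨h1, h2⟩ := hG L l2 _ hE
  have c0 : 1 ≤ ε * L := by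
    rw [mul_comm]
    exact (div_le_iff₀ hε).1 (Nat.ceil_le.1 l3)
  have c1 : 1 ≤ √(ε * L) := Real.one_le_sqrt.2 c0
  have c2 : √(ε * L) ^ 2 ≤ ε₁ * L := by
    rw [Real.sq_sqrt (by linarith)]
    exact mul_le_mul_of_nonneg_right e2 (Nat.cast_nonneg L)
  refine ⟨fun m N => kf (m + 1) N, fun m N k hk => ?_, fun ε' hε' => ?_⟩
  · obtain ⟨k1, Zσ, Zε, k2⟩ := h1 (m + 1) _ _ c1 c2 ⟨N, k, hk, rfl⟩ (sch_QU L ε k N)
    exact ⟨univU_anti k1 m.le_succ, Zσ, Zε, univJK2 k2⟩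
  · obtain ⟨η, hη, h⟩ := h2 ε' hε'
    refine ⟨η, hη, fun R => ?_⟩
    obtain ⟨δ, hδ, h⟩ := h R
    refine ⟨δ, hδ, fun q hR hq => ?_⟩
    obtain ⟨z0, z1, z2, z3, h⟩ := h q hR hq
    refine ⟨z0, z1, z2, z3, fun m N k hk => ?_⟩
    obtain ⟨k1, k2⟩ := h (m + 1) _ _ c1 c2 ⟨N, k, hk, rfl⟩ (sch_QU L ε k N)
    exact ⟨univU_anti k1 m.le_succ, univJK2 k2⟩

theorem genA2_of (hS : StepI2) : GenA2 :=
  genA_of2 (engT_of initU wtS) (genJA_of2 (flowSU2 hS) mainSU2)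

end Vale.Agent.P144C
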