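import Vale.Agent.P144C.E.Defs

/-!
Sign changes at corners: the blocks of the flow for the new marks.
-/

namespace Vale.Agent.P144C

open Finset Matrix Vale.Agent.P144Z

/-- `MainJV` for at most `m` energies and weighted corrections. -/
def MainJU2 (Q : Cls) (q : Par) (Zσ Zε : ℝ) (L m : ℕ) (c' η₁ σ γ : ℝ) : Prop :=
  ∀ K : ℕ, ∃ θ > 0, ∀ (N Λ : ℕ) (Γ : ℝ), 1 ≤ Γ → ∃ C : ℝ, ∀ ε > 0, ∃ J₀ : ℕ, ∀ J ≥ J₀,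
    ∀ (M : ℕ) [NeZero M] (P : Gauge M) (v : Cor M) (k : ℕ) (s : Fin k → Tor M × Fin 4)
    (u : Fin k → ℕ → Tor M × Fin 4 → ℝ) (ν : Fin k → ℕ → ℝ) (o : ℝ)
    (O : Fin k → (Tor M × Fin 2 → Bool) → ℝ), v.Ok → v.Off P → v.Wt σ γ → k ≤ N →
    MkDat2 P s u ν L J c' η₁ → LocO s K O → |o| ≤ 1 → (∀ i n, |O i n - o| ≤ θ) →
    ∃ z : Fin k → ℝ, (∀ i, |z i - o| ≤ 1 / 2) ∧
      ∀ (B : Gauge M) (ι : Type) [Fintype ι] [DecidableEq ι] (y : ι → Tor M) (d : ι → Fin 2)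
      (n : ℕ) (K' : ℝ), Fintype.card ι ≤ m → DomQ Q P B y d n L J N Λ Γ →
      (∀ φ, φ ⬝ᵥ φ ≤ (Γ * sc L J) ^ 2 * ((Dm (P * B) *ᵥ φ) ⬝ᵥ (Dm (P * B) *ᵥ φ))) →
      |Zw par0 (P * B) 1| ≤ K' * |Zw par0 P 1| →
        |mixJV q v P B s O y d -
          (∏ i, z i) * Zσ ^ n * Zε ^ Fintype.card ι * mixJ par0 P B s 1 y d| ≤
          ε / (sc L J : ℝ) ^ Fintype.card ι * (K' * ∏ i, ν i J) ∧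
        |mixJ par0 P B s 1 y d| ≤ C / (sc L J : ℝ) ^ Fintype.card ι * (K' * ∏ i, ν i J)

/-- The main estimates with insertions hold for small corrections. -/
def UnivJU2 (Q : Cls) (q : Par) (Zσ Zε : ℝ) (L N : ℕ) (c' η₁ : ℝ) : Prop :=
  ∃ σ γ : ℝ, 0 ≤ σ ∧ 0 < γ ∧ MainJU2 Q q Zσ Zε L N c' η₁ σ γ ∧ EnU Q q L N σ γ

/-- The bounds on the flow with insertions. -/
def FlowQV2 (Q : Cls) (q : Par) (L m : ℕ) (σ γ Z a c c' η₁ : ℝ) : Prop :=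
  ∀ K : ℕ, ∃ θ > (0 : ℝ), ∀ (Λ : ℕ) (h : ℝ), 0 < h → ∃ w > 0, ∃ b > 0, ∃ J₀ : ℕ, ∀ g : Geo,
    J₀ ≤ g.J → g.Pre0 L q.R → Fintype.card g.K ≤ m → Q g.M g.A g.J → g.M ≤ Λ * sc L g.J →
    ∀ v : Cor g.M, v.Ok → v.Off g.A → v.Wt σ γ → g.FlowD L q v Z w a b h ∧
      (g.SchA L c → ∀ (k : ℕ) (s : Fin k → g.P × Fin 4) (u : Fin k → ℕ → g.P × Fin 4 → ℝ)
        (ν : Fin k → ℕ → ℝ) (o : ℝ) (O : Fin k → g.Cfg → ℝ), MkPre2 g s u ν L c' η₁ →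
        LocO s K O → |o| ≤ 1 → (∀ i n, |O i n - o| ≤ θ) → g.FlowV s L q v o O K u ν w b h)

/-- The bounds on the flows for the classes of an engine. -/
def FlowSU2 : Prop :=
  ∃ ε₁ > (0 : ℝ), ∀ c' : ℝ, 1 ≤ c' → ∃ η₁ > (0 : ℝ), ∃ L₀ : ℕ, ∀ L ≥ L₀, ∀ G, EngU L G →
    ∃ C : ℝ, 1 ≤ C ∧ ∃ σ : ℝ, 0 ≤ σ ∧ ∃ η₀ > 0, ∀ η, 0 < η → η ≤ η₀ → ∀ R : ℕ, ∃ δ₀ > 0,
      ∀ q : Par, q.R = R → Crit L q η δ₀ → ∀ Z : ℝ, |Z * (-2 * tc)| ≤ 2 →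
      (∀ j, |FM.zr L q j - Z * (-2 * tc)| ≤ 1 / 2 ^ j) → ∀ m Q, G m Q →
        FlowQ Q q L m σ η Z (C * η) ∧ ∀ c : ℝ, 1 ≤ c → c ^ 2 ≤ ε₁ * L →
          FlowQV2 Q q L m σ (η / C) Z (C * η) c c' η₁

/-- From the flows to the main estimates. -/
def MainSU2 : Prop :=
  ∀ (L m : ℕ) (q : Par) (Z a b s σ γ : ℝ) (Q : Cls), 64 ≤ L → q.Ok → 0 ≤ a →
    (FlowQ Q q L m σ γ Z a → EnU Q q L m σ γ) ∧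
    (1 / 2 ≤ Z → MN.Pl L q Z a b → MN.Sg L q Z a b s →
      (FlowQ Q q L m σ γ Z a → MainU Q q (Real.exp s) Z L m σ γ) ∧
      ∀ c c' η₁ : ℝ, Q.Sch L c → FlowQV2 Q q L m σ γ Z a c c' η₁ →
        MainJU2 Q q (Real.exp s) Z L m c' η₁ σ γ)

open AN in
/-- `GenJU` with the canonical constants. -/
def GenJA2 : Prop :=
  ∃ ε₁ > (0 : ℝ), ∀ c' : ℝ, 1 ≤ c' → ∃ η₁ > (0 : ℝ), ∃ L₀ : ℕ, ∀ L ≥ L₀, ∀ G, EngU L G →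
    (∀ (N : ℕ) (Q : Cls) (c : ℝ), 1 ≤ c → c ^ 2 ≤ ε₁ * L → G N Q → Q.Sch L c →
      UnivU Q par0 1 1 L N ∧ ∃ Zσ Zε : ℝ, UnivJU2 Q par0 Zσ Zε L N c' η₁) ∧
    ∀ ε > 0, ∃ η₀ > 0, ∀ R : ℕ, ∃ δ₀ > 0, ∀ q : Par, q.R = R → Crit L q η₀ δ₀ →
      Ch L q ∧ |Real.exp (sg L q) - 1| < ε ∧ |ze L q - 1| < ε ∧
        MainOK q (Real.exp (sg L q)) (ze L q) ∧
        ∀ (N : ℕ) (Q : Cls) (c : ℝ), 1 ≤ c → c ^ 2 ≤ ε₁ * L → G N Q → Q.Sch L c →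
          UnivU Q q (Real.exp (sg L q)) (ze L q) L N ∧
            UnivJU2 Q q (Real.exp (sg L q)) (ze L q) L N c' η₁

end Vale.Agent.P144C
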